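import Vale.Agent.P017.R2.H918.BLaux

open Finset

namespace Vale.Agent.P017.R2.H918

/-- square of the number of representations, summed -/
theorem sum_rep_sq (s : Finset ℕ) (M : ℕ) (hs : ∀ a ∈ s, 0 < a)
    (hM : ∀ a ∈ s, ∀ b ∈ s, ∀ c ∈ s, a * b * c ≤ M) :
    ∑ m ∈ Ioc 0 M, ((((s ×ˢ s ×ˢ s).filter (fun t => t.1 * t.2.1 * t.2.2 = m)).card : ℕ) : ℝ) ^ 2
      ≤ M * (1 + Real.log M) ^ 8 := by
  classical
  set P := ((s ×ˢ s ×ˢ s) ×ˢ (s ×ˢ s ×ˢ s)).filter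
      (fun t => t.1.1 * t.1.2.1 * t.1.2.2 = t.2.1 * t.2.2.1 * t.2.2.2) with hP
  have h1 : P.card = ∑ m ∈ Ioc 0 M, (P.filter (fun t => t.1.1 * t.1.2.1 * t.1.2.2 = m)).card := by
    refine card_eq_sum_card_fiberwise ?_
    rintro ⟨⟨a, b, c⟩, t'⟩ ht
    rw [mem_coe, hP, mem_filter, mem_product, mem_product, mem_product] at ht
    obtain ⟨⟨⟨h1, h2, h3⟩, -⟩, -⟩ := ht
    simp only at h1 h2 h3
    rw [mem_coe, mem_Ioc]
    exact ⟨Nat.mul_pos (Nat.mul_pos (hs _ h1) (hs _ h2)) (hs _ h3), hM _ h1 _ h2 _ h3⟩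
  have h2 : ∀ m, (P.filter (fun t => t.1.1 * t.1.2.1 * t.1.2.2 = m)).card =
      ((s ×ˢ s ×ˢ s).filter (fun t => t.1 * t.2.1 * t.2.2 = m)).card ^ 2 := by
    intro m
    rw [sq, ← card_product]
    congr 1
    ext ⟨t, t'⟩
    rw [hP]
    rw [mem_filter, mem_filter, mem_product, mem_product (s := filter _ _), mem_filter, mem_filter]
    simp only
    constructor
    · rintro ⟨⟨⟨h1, h2⟩, h3⟩, h4⟩
      exact ⟨⟨h1, h4⟩, h2, h3 ▸ h4⟩
    · rintro ⟨⟨h1, h4⟩, h2, h3⟩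
      exact ⟨⟨⟨h1, h2⟩, h4.trans h3.symm⟩, h4⟩
  have h3 : ∑ m ∈ Ioc 0 M,
      ((((s ×ˢ s ×ˢ s).filter (fun t => t.1 * t.2.1 * t.2.2 = m)).card : ℕ) : ℝ) ^ 2 =
      (P.card : ℝ) := by
    rw [h1]
    push_cast
    refine sum_congr rfl fun m _ => ?_
    rw [h2 m]
    push_cast
    rfl
  rw [h3]
  have h4 : (P.card : ℝ) ≤ (((Fintype.piFinset (fun _ : Fin (8 + 1) => Icc 1 M)).filter
      (fun v => ∏ i, v i ≤ M)).card : ℕ) := by exact_mod_cast card_quad s M hs hM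
  refine h4.trans ((card_tuples 8 M).trans ?_)
  have h5 : 0 ≤ ∑ a ∈ Icc 1 M, (1 : ℝ) / a := sum_nonneg fun a _ => by positivity
  gcongr
  exact harm_le M

/-- cube of a sum -/
theorem cube_sum (s : Finset ℕ) (f : ℕ → ℝ) :
    (∑ n ∈ s, f n) ^ 3 = ∑ t ∈ s ×ˢ s ×ˢ s, f t.1 * f t.2.1 * f t.2.2 := by
  rw [sum_product]
  have : ∀ x ∈ s, ∑ y ∈ s ×ˢ s, f x * f y.1 * f y.2 = f x * (∑ n ∈ s, f n) ^ 2 := by
    intro x _
    rw [sum_product, sq, sum_mul_sum, mul_sum]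
    refine sum_congr rfl fun y _ => ?_
    rw [mul_sum]
    exact sum_congr rfl fun z _ => by ring
  rw [sum_congr rfl this, ← sum_mul]
  ring

theorem bl_six (χ : ℕ → ℕ → ℤ) (hb : ∀ x n, |χ x n| ≤ 1)
    (hm : ∀ x n n', χ x (n * n') = χ x n * χ x n')
    (hp : ∀ x x' N N' : ℕ, Odd x → Odd x' → ¬ IsSquare (x * x') →
      |∑ n ∈ Ioc N N', χ x n * χ x' n| ≤ 4 * x * x')
    (i j : ℕ) (hij : i ≤ j) (α β : ℕ → ℝ) (hα : ∀ n, |α n| ≤ 1) (hβ : ∀ n, |β n| ≤ 1)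
    (hev : ∀ n, Even n → α n = 0) :
    |∑ x ∈ Ico (2 ^ i) (2 ^ (i + 1)), ∑ n ∈ Ico (2 ^ j) (2 ^ (j + 1)), α x * β n * χ x n| ^ 6 ≤
      25165824 * ((2 : ℝ) ^ i) ^ 5 * (2 ^ j) ^ 6 * (j + 1) ^ 9 := by
  classical
  set X : Finset ℕ := (Ico (2 ^ i) (2 ^ (i + 1))).filter Odd with hX
  set Ns : Finset ℕ := Ico (2 ^ j) (2 ^ (j + 1)) with hNs
  set A : ℕ → ℝ := fun x => ∑ n ∈ Ns, β n * χ x n with hA
  set e : ℕ → ℝ := fun x => if 0 ≤ A x then 1 else -1 with he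
  have hbR : ∀ x n, |(χ x n : ℝ)| ≤ 1 := fun x n => by exact_mod_cast hb x n
  have hXc : (X.card : ℝ) ≤ 2 ^ i := by
    have h : X.card ≤ (Ico (2 ^ i) (2 ^ (i + 1))).card := card_filter_le _ _
    rw [Nat.card_Ico, pow_succ] at h
    have h' : X.card ≤ 2 ^ i := by omega
    exact_mod_cast h'
  -- step 1
  have h1 : |∑ x ∈ Ico (2 ^ i) (2 ^ (i + 1)), ∑ n ∈ Ns, α x * β n * χ x n| ≤ ∑ x ∈ X, |A x| := by
    calc |∑ x ∈ Ico (2 ^ i) (2 ^ (i + 1)), ∑ n ∈ Ns, α x * β n * χ x n|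
        ≤ ∑ x ∈ Ico (2 ^ i) (2 ^ (i + 1)), |∑ n ∈ Ns, α x * β n * χ x n| :=
          abs_sum_le_sum_abs _ _
      _ ≤ ∑ x ∈ Ico (2 ^ i) (2 ^ (i + 1)), (if Odd x then |A x| else 0) := by
          refine sum_le_sum fun x _ => ?_
          have h2 : ∑ n ∈ Ns, α x * β n * χ x n = α x * A x := by
            rw [hA, mul_sum]
            exact sum_congr rfl fun n _ => by ring
          rw [h2, abs_mul]
          split_ifs with ho
          · calc |α x| * |A x| ≤ 1 * |A x| := by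
                  have := abs_nonneg (A x)
                  gcongr
                  exact hα x
              _ = |A x| := one_mul _
          · rw [hev x (Nat.not_odd_iff_even.1 ho), abs_zero, zero_mul]
      _ = ∑ x ∈ X, |A x| := by rw [hX, sum_filter]
  -- step 2
  have h2 : (∑ x ∈ X, |A x|) ^ 3 ≤ (2 ^ i) ^ 2 * ∑ x ∈ X, |A x| ^ 3 := by
    have h := pow_sum_le_card_mul_sum_pow (s := X) (f := fun x => |A x|)
      (fun x _ => abs_nonneg _) 2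
    refine h.trans ?_
    have h3 : 0 ≤ ∑ x ∈ X, |A x| ^ 3 := sum_nonneg fun x _ => by positivity
    gcongr
  -- step 3
  set F : ℕ → ℝ := fun m => ∑ x ∈ X, e x * χ x m with hF
  have h3 : ∑ x ∈ X, |A x| ^ 3 =
      ∑ t ∈ Ns ×ˢ Ns ×ˢ Ns, (β t.1 * β t.2.1 * β t.2.2) * F (t.1 * t.2.1 * t.2.2) := by
    have h4 : ∀ x ∈ X, |A x| ^ 3 = ∑ t ∈ Ns ×ˢ Ns ×ˢ Ns,
        (β t.1 * β t.2.1 * β t.2.2) * (e x * χ x (t.1 * t.2.1 * t.2.2)) := by
      intro x _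
      have h5 : |A x| ^ 3 = e x * (A x) ^ 3 := by
        rw [he]
        simp only
        split_ifs with h
        · rw [abs_of_nonneg h, one_mul]
        · rw [abs_of_neg (not_le.1 h)]; ring
      rw [h5, hA]
      simp only
      rw [cube_sum, mul_sum]
      refine sum_congr rfl fun t _ => ?_
      rw [hm, hm]
      push_cast
      ring
    rw [sum_congr rfl h4, sum_comm]
    refine sum_congr rfl fun t _ => ?_
    rw [hF, mul_sum]
  -- step 4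
  set M : ℕ := 8 * (2 ^ j) ^ 3 with hM
  set r : ℕ → ℝ := fun m =>
    ((((Ns ×ˢ Ns ×ˢ Ns).filter (fun t => t.1 * t.2.1 * t.2.2 = m)).card : ℕ) : ℝ) with hr
  have hNpos : ∀ a ∈ Ns, 0 < a := fun a ha =>
    lt_of_lt_of_le (by positivity) (mem_Ico.1 ha).1
  have hNle : ∀ a ∈ Ns, a ≤ 2 * 2 ^ j := fun a ha => by
    have := (mem_Ico.1 ha).2
    rw [pow_succ] at this
    omega
  have hN3 : ∀ a ∈ Ns, ∀ b ∈ Ns, ∀ c ∈ Ns, a * b * c ≤ M := by
    intro a ha b hb c hc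
    calc a * b * c ≤ (2 * 2 ^ j) * (2 * 2 ^ j) * (2 * 2 ^ j) :=
          Nat.mul_le_mul (Nat.mul_le_mul (hNle a ha) (hNle b hb)) (hNle c hc)
      _ = M := by rw [hM]; ring
  have h4 : ∑ x ∈ X, |A x| ^ 3 ≤ ∑ m ∈ Ioc 0 M, r m * |F m| := by
    rw [h3]
    calc ∑ t ∈ Ns ×ˢ Ns ×ˢ Ns, (β t.1 * β t.2.1 * β t.2.2) * F (t.1 * t.2.1 * t.2.2)
        ≤ ∑ t ∈ Ns ×ˢ Ns ×ˢ Ns, |F (t.1 * t.2.1 * t.2.2)| := by
          refine sum_le_sum fun t _ => (le_abs_self _).trans ?_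
          rw [abs_mul, abs_mul, abs_mul]
          have hb3 : |β t.1| * |β t.2.1| * |β t.2.2| ≤ 1 * 1 * 1 := by
            have := abs_nonneg (β t.1)
            have := abs_nonneg (β t.2.1)
            have := abs_nonneg (β t.2.2)
            gcongr
            · exact hβ _
            · exact hβ _
            · exact hβ _
          calc |β t.1| * |β t.2.1| * |β t.2.2| * |F (t.1 * t.2.1 * t.2.2)|
              ≤ (1 * 1 * 1) * |F (t.1 * t.2.1 * t.2.2)| := by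
                have := abs_nonneg (F (t.1 * t.2.1 * t.2.2))
                gcongr
            _ = |F (t.1 * t.2.1 * t.2.2)| := by ring
      _ = ∑ m ∈ Ioc 0 M, ∑ t ∈ (Ns ×ˢ Ns ×ˢ Ns).filter (fun t => t.1 * t.2.1 * t.2.2 = m),
            |F (t.1 * t.2.1 * t.2.2)| := by
          refine (sum_fiberwise_of_maps_to ?_ _).symm
          rintro ⟨a, b, c⟩ ht
          rw [mem_product, mem_product] at ht
          obtain ⟨h1, h2, h3⟩ := ht
          simp only at h1 h2 h3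
          rw [mem_Ioc]
          exact ⟨Nat.mul_pos (Nat.mul_pos (hNpos _ h1) (hNpos _ h2)) (hNpos _ h3),
            hN3 _ h1 _ h2 _ h3⟩
      _ = ∑ m ∈ Ioc 0 M, r m * |F m| := by
          refine sum_congr rfl fun m _ => ?_
          rw [hr]
          simp only
          rw [← nsmul_eq_mul, ← sum_const]
          refine sum_congr rfl fun t ht => ?_
          rw [(mem_filter.1 ht).2]
  -- step 5
  have h5 : (∑ m ∈ Ioc 0 M, r m * |F m|) ^ 2 ≤ (∑ m ∈ Ioc 0 M, r m ^ 2) * ∑ m ∈ Ioc 0 M, F m ^ 2 := by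
    have := sum_mul_sq_le_sq_mul_sq (Ioc 0 M) r (fun m => |F m|)
    simpa [sq_abs] using this
  have h6 : ∑ m ∈ Ioc 0 M, r m ^ 2 ≤ M * (1 + Real.log M) ^ 8 := sum_rep_sq Ns M hNpos hN3
  -- step 6
  have hXle : ∀ x ∈ X, x ≤ 2 * 2 ^ i := fun a ha => by
    have := (mem_Ico.1 (mem_filter.1 ha).1).2
    rw [pow_succ] at this
    omega
  have hXpos : ∀ x ∈ X, 0 < x := fun a ha =>
    lt_of_lt_of_le (by positivity) (mem_Ico.1 (mem_filter.1 ha).1).1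
  have h7 : ∑ m ∈ Ioc 0 M, F m ^ 2 ≤
      (((X ×ˢ X).filter (fun t => IsSquare (t.1 * t.2))).card : ℝ) * M +
        (2 ^ i) ^ 2 * (16 * (2 ^ i) ^ 2) := by
    have h8 : ∑ m ∈ Ioc 0 M, F m ^ 2 = ∑ t ∈ X ×ˢ X,
        e t.1 * e t.2 * ((∑ m ∈ Ioc 0 M, χ t.1 m * χ t.2 m : ℤ) : ℝ) := by
      have h9 : ∀ m ∈ Ioc 0 M, F m ^ 2 = ∑ t ∈ X ×ˢ X, e t.1 * e t.2 * (χ t.1 m * χ t.2 m) := by
        intro m _
        rw [hF, sq]
        simp only
        rw [sum_mul_sum, sum_product]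
        exact sum_congr rfl fun x _ => sum_congr rfl fun y _ => by ring
      rw [sum_congr rfl h9, sum_comm]
      refine sum_congr rfl fun t _ => ?_
      push_cast
      rw [mul_sum]
    rw [h8]
    have he1 : ∀ x, |e x| = 1 := fun x => by
      rw [he]
      simp only
      split_ifs
      · exact abs_one
      · rw [abs_neg, abs_one]
    have h10 : ∀ t ∈ X ×ˢ X,
        e t.1 * e t.2 * ((∑ m ∈ Ioc 0 M, χ t.1 m * χ t.2 m : ℤ) : ℝ) ≤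
          (if IsSquare (t.1 * t.2) then (M : ℝ) else 0) + 16 * (2 ^ i) ^ 2 := by
      rintro ⟨x, y⟩ ht
      rw [mem_product] at ht
      obtain ⟨hx, hy⟩ := ht
      simp only at hx hy ⊢
      refine (le_abs_self _).trans ?_
      rw [abs_mul, abs_mul, he1, he1, one_mul, one_mul]
      split_ifs with hsq
      · have h11 : |((∑ m ∈ Ioc 0 M, χ x m * χ y m : ℤ) : ℝ)| ≤ M := by
          push_cast
          calc |∑ m ∈ Ioc 0 M, (χ x m : ℝ) * χ y m| ≤ ∑ m ∈ Ioc 0 M, |(χ x m : ℝ) * χ y m| :=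
                abs_sum_le_sum_abs _ _
            _ ≤ ∑ m ∈ Ioc 0 M, (1 : ℝ) := by
                refine sum_le_sum fun m _ => ?_
                rw [abs_mul]
                exact mul_le_one₀ (hbR _ _) (abs_nonneg _) (hbR _ _)
            _ = M := by rw [sum_const, Nat.card_Ioc, Nat.sub_zero, nsmul_eq_mul, mul_one]
        have : (0 : ℝ) ≤ 16 * (2 ^ i) ^ 2 := by positivity
        linarith
      · have h12 := hp x y 0 M (mem_filter.1 hx).2 (mem_filter.1 hy).2 hsq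
        have h13 : |((∑ m ∈ Ioc 0 M, χ x m * χ y m : ℤ) : ℝ)| ≤ 4 * x * y := by
          exact_mod_cast h12
        have h14 : (x : ℝ) ≤ 2 * 2 ^ i := by exact_mod_cast hXle x hx
        have h15 : (y : ℝ) ≤ 2 * 2 ^ i := by exact_mod_cast hXle y hy
        calc |((∑ m ∈ Ioc 0 M, χ x m * χ y m : ℤ) : ℝ)| ≤ 4 * x * y := h13
          _ ≤ 4 * (2 * 2 ^ i) * (2 * 2 ^ i) := by gcongr
          _ = 0 + 16 * (2 ^ i) ^ 2 := by ring
    refine (sum_le_sum h10).trans ?_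
    rw [sum_add_distrib, ← sum_filter, sum_const, sum_const, nsmul_eq_mul, nsmul_eq_mul,
      card_product]
    push_cast
    have hc0 : (0 : ℝ) ≤ (X.card : ℝ) := Nat.cast_nonneg _
    have hc2 : (X.card : ℝ) * X.card ≤ (2 ^ i) ^ 2 := by
      rw [sq]
      gcongr
    have : (X.card : ℝ) * X.card * (16 * (2 ^ i) ^ 2) ≤ (2 ^ i) ^ 2 * (16 * (2 ^ i) ^ 2) := by
      gcongr
    linarith
  -- numbers
  have hL1 : (1 : ℝ) ≤ (j : ℝ) + 1 := by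
    have : (0 : ℝ) ≤ j := Nat.cast_nonneg _
    linarith
  have hlog2 : Real.log 2 ≤ 0.6931471808 := Real.log_two_lt_d9.le
  have hlog2' : 0 ≤ Real.log 2 := Real.log_nonneg (by norm_num)
  have hlogM : 1 + Real.log M ≤ 4 * ((j : ℝ) + 1) := by
    have h : (M : ℝ) = 2 ^ (3 * j + 3) := by
      rw [hM]; push_cast; ring
    rw [h, Real.log_pow]
    push_cast
    nlinarith
  have hlogM0 : 0 ≤ 1 + Real.log M := by
    have : 0 ≤ Real.log M := Real.log_natCast_nonneg _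
    linarith
  have hQ : (((X ×ˢ X).filter (fun t => IsSquare (t.1 * t.2))).card : ℝ) ≤
      4 * 2 ^ i * ((j : ℝ) + 1) := by
    have h := card_sq (2 * 2 ^ i) X (fun a ha => ⟨hXpos a ha, hXle a ha⟩)
    have h' := harm_le (2 * 2 ^ i)
    have h'' : 1 + Real.log ((2 * 2 ^ i : ℕ) : ℝ) ≤ 2 * ((j : ℝ) + 1) := by
      have e1 : ((2 * 2 ^ i : ℕ) : ℝ) = 2 ^ (i + 1) := by push_cast; ring
      rw [e1, Real.log_pow]
      push_cast
      have hij' : (i : ℝ) ≤ j := by exact_mod_cast hij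
      have hi0 : (0 : ℝ) ≤ i := Nat.cast_nonneg _
      nlinarith
    calc (((X ×ˢ X).filter (fun t => IsSquare (t.1 * t.2))).card : ℝ)
        ≤ ((2 * 2 ^ i : ℕ) : ℝ) * ∑ a ∈ Icc 1 (2 * 2 ^ i : ℕ), (1 : ℝ) / a := h
      _ ≤ ((2 * 2 ^ i : ℕ) : ℝ) * (2 * ((j : ℝ) + 1)) := by
          gcongr
          exact h'.trans h''
      _ = 4 * 2 ^ i * ((j : ℝ) + 1) := by push_cast; ring
  have hXN : (2 : ℝ) ^ i ≤ 2 ^ j := pow_le_pow_right₀ (by norm_num) hij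
  set x : ℝ := 2 ^ i with hx
  set y : ℝ := 2 ^ j with hy
  set L : ℝ := (j : ℝ) + 1 with hL
  have hx0 : 0 < x := by positivity
  have hy0 : 0 < y := by positivity
  have hMy : (M : ℝ) = 8 * y ^ 3 := by rw [hM, hy]; push_cast; ring
  have h7' : ∑ m ∈ Ioc 0 M, F m ^ 2 ≤ 48 * x * y ^ 3 * L := by
    refine h7.trans ?_
    rw [hMy]
    have a1 : (((X ×ˢ X).filter (fun t => IsSquare (t.1 * t.2))).card : ℝ) * (8 * y ^ 3) ≤
        4 * x * L * (8 * y ^ 3) := by gcongr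
    have a2 : x ^ 2 * (16 * x ^ 2) ≤ 16 * x * y ^ 3 * L := by
      calc x ^ 2 * (16 * x ^ 2) = 16 * x * x ^ 3 * 1 := by ring
        _ ≤ 16 * x * y ^ 3 * L := by gcongr
    nlinarith
  have h6' : ∑ m ∈ Ioc 0 M, r m ^ 2 ≤ 524288 * y ^ 3 * L ^ 8 := by
    refine h6.trans ?_
    rw [hMy]
    rw [hMy] at hlogM hlogM0
    calc 8 * y ^ 3 * (1 + Real.log (8 * y ^ 3)) ^ 8 ≤ 8 * y ^ 3 * (4 * L) ^ 8 := by gcongr
      _ = 524288 * y ^ 3 * L ^ 8 := by ring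
  have h9 : (∑ x ∈ X, |A x| ^ 3) ^ 2 ≤ 25165824 * x * y ^ 6 * L ^ 9 := by
    have b0 : 0 ≤ ∑ x ∈ X, |A x| ^ 3 := sum_nonneg fun x _ => by positivity
    calc (∑ x ∈ X, |A x| ^ 3) ^ 2 ≤ (∑ m ∈ Ioc 0 M, r m * |F m|) ^ 2 := by gcongr
      _ ≤ (∑ m ∈ Ioc 0 M, r m ^ 2) * ∑ m ∈ Ioc 0 M, F m ^ 2 := h5
      _ ≤ (524288 * y ^ 3 * L ^ 8) * (48 * x * y ^ 3 * L) := by
          have c0 : 0 ≤ ∑ m ∈ Ioc 0 M, F m ^ 2 := sum_nonneg fun m _ => sq_nonneg _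
          gcongr
      _ = 25165824 * x * y ^ 6 * L ^ 9 := by ring
  have hS0 : 0 ≤ ∑ x ∈ X, |A x| := sum_nonneg fun x _ => abs_nonneg _
  calc |∑ x ∈ Ico (2 ^ i) (2 ^ (i + 1)), ∑ n ∈ Ns, α x * β n * χ x n| ^ 6
      ≤ (∑ x ∈ X, |A x|) ^ 6 := by gcongr
    _ = ((∑ x ∈ X, |A x|) ^ 3) ^ 2 := by rw [← pow_mul]
    _ ≤ (x ^ 2 * ∑ x ∈ X, |A x| ^ 3) ^ 2 := by gcongr
    _ = x ^ 4 * (∑ x ∈ X, |A x| ^ 3) ^ 2 := by rw [mul_pow, ← pow_mul]
    _ ≤ x ^ 4 * (25165824 * x * y ^ 6 * L ^ 9) := by gcongr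
    _ = 25165824 * x ^ 5 * y ^ 6 * L ^ 9 := by ring

end Vale.Agent.P017.R2.H918
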