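import Vale.Agent.P017.R2.H985.Defs
import Vale.Agent.P017.R2.H918.BLmain

open Finset

namespace Vale.Agent.P017.R2.H918

/-- bilinear sums (M4) -/
theorem stmtBL : Vale.Agent.P017.R2.H985.StmtBL := by
  refine ⟨32, by norm_num, ?_⟩
  intro χ hb hm hp i j hij α β hα hβ hev
  have h6 := bl_six χ hb hm hp i j hij α β hα hβ hev
  set S := ∑ x ∈ Ico (2 ^ i) (2 ^ (i + 1)), ∑ n ∈ Ico (2 ^ j) (2 ^ (j + 1)), α x * β n * χ x n
    with hS
  have hj : (1 : ℝ) ≤ (j : ℝ) + 1 := by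
    have : (0 : ℝ) ≤ j := Nat.cast_nonneg _
    linarith
  set x : ℝ := 2 ^ i with hx
  set y : ℝ := 2 ^ j with hy
  set L : ℝ := (j : ℝ) + 1 with hL
  set w : ℝ := (2 : ℝ) ^ (-((i : ℝ) / 6)) with hw
  have hx0 : 0 < x := by positivity
  have hy0 : 0 < y := by positivity
  have hw0 : 0 < w := by positivity
  have hL0 : 0 < L := by linarith
  have hw6 : w ^ 6 * x = 1 := by
    have e1 : w ^ 6 = (2 : ℝ) ^ (-(i : ℝ)) := by
      rw [hw, ← Real.rpow_natCast, ← Real.rpow_mul (by norm_num)]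
      congr 1
      push_cast
      ring
    rw [e1, Real.rpow_neg (by norm_num), Real.rpow_natCast, hx]
    exact inv_mul_cancel₀ (by positivity)
  refine le_of_pow_le_pow_left₀ (n := 6) (by norm_num) (by positivity) (h6.trans ?_)
  have h24 : L ^ 9 ≤ L ^ 24 := pow_le_pow_right₀ hj (by norm_num)
  calc 25165824 * x ^ 5 * y ^ 6 * L ^ 9 ≤ 1073741824 * x ^ 5 * y ^ 6 * L ^ 24 := by
        gcongr
        norm_num
    _ = 1073741824 * x ^ 5 * y ^ 6 * L ^ 24 * (w ^ 6 * x) := by rw [hw6, mul_one]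
    _ = (32 * x * y * w * L ^ 4) ^ 6 := by
        rw [mul_pow, mul_pow, mul_pow, mul_pow, ← pow_mul]
        norm_num
        ring

end Vale.Agent.P017.R2.H918
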