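import Mathlib

open Finset

namespace Vale.Agent.P017.R2.H918

/-- refinement of two factorisations -/
theorem refine2 {a b c d : ℕ} (ha : 0 < a) (h : a * b = c * d) :
    ∃ x y z w, a = x * y ∧ b = z * w ∧ c = x * z ∧ d = y * w := by
  have h1 : a ∣ c * d := ⟨b, h.symm⟩
  obtain ⟨x, y, ⟨z, hz⟩, ⟨w, hw⟩, hxy⟩ := exists_dvd_and_dvd_of_dvd_mul h1
  refine ⟨x, y, z, w, hxy, ?_, hz, hw⟩
  subst hxy hz hw
  have h2 : x * y * b = x * y * (z * w) := by rw [h]; ring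
  exact Nat.eq_of_mul_eq_mul_left ha h2

/-- harmonic sums -/
theorem harm_le (M : ℕ) : ∑ a ∈ Icc 1 M, (1 : ℝ) / a ≤ 1 + Real.log M := by
  have h := harmonic_le_one_add_log M
  have h2 : ((harmonic M : ℚ) : ℝ) = ∑ a ∈ Icc 1 M, (1 : ℝ) / a := by
    rw [harmonic_eq_sum_Icc]
    push_cast
    exact sum_congr rfl fun a _ => by rw [one_div]
  rw [← h2]
  exact h

/-- tuples with bounded product -/
theorem card_tuples (k M : ℕ) :
    ((((Fintype.piFinset (fun _ : Fin (k + 1) => Icc 1 M)).filter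
      (fun v => ∏ i, v i ≤ M)).card : ℕ) : ℝ) ≤ M * (∑ a ∈ Icc 1 M, (1 : ℝ) / a) ^ k := by
  classical
  set s := (Fintype.piFinset (fun _ : Fin (k + 1) => Icc 1 M)).filter
      (fun v => ∏ i, v i ≤ M) with hs
  have hmaps : ∀ v ∈ s, (Fin.tail v : Fin k → ℕ) ∈ Fintype.piFinset (fun _ : Fin k => Icc 1 M) := by
    intro v hv
    rw [hs, mem_filter, Fintype.mem_piFinset] at hv
    rw [Fintype.mem_piFinset]
    intro i
    exact hv.1 i.succ
  have h1 : s.card = ∑ w ∈ Fintype.piFinset (fun _ : Fin k => Icc 1 M),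
      (s.filter (fun v => (Fin.tail v : Fin k → ℕ) = w)).card :=
    card_eq_sum_card_fiberwise hmaps
  have h2 : ∀ w ∈ Fintype.piFinset (fun _ : Fin k => Icc 1 M),
      (((s.filter (fun v => (Fin.tail v : Fin k → ℕ) = w)).card : ℕ) : ℝ) ≤
        M * ∏ i, (1 : ℝ) / (w i : ℝ) := by
    intro w hw
    rw [Fintype.mem_piFinset] at hw
    have hpos : 0 < ∏ i, w i := prod_pos fun i _ => (mem_Icc.1 (hw i)).1
    have h3 : (s.filter (fun v => (Fin.tail v : Fin k → ℕ) = w)).card ≤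
        (Icc 1 (M / ∏ i, w i)).card := by
      refine card_le_card_of_injOn (fun v => v 0) ?_ ?_
      · intro v hv
        rw [mem_coe, mem_filter, hs, mem_filter, Fintype.mem_piFinset] at hv
        obtain ⟨⟨hv1, hv2⟩, hv3⟩ := hv
        rw [mem_coe, mem_Icc]
        refine ⟨(mem_Icc.1 (hv1 0)).1, ?_⟩
        rw [Nat.le_div_iff_mul_le hpos]
        rw [Fin.prod_univ_succ] at hv2
        rw [← hv3]
        exact hv2
      · intro v hv v' hv' h0
        rw [mem_coe, mem_filter] at hv hv'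
        have h4 : (Fin.tail v : Fin k → ℕ) = Fin.tail v' := hv.2.trans hv'.2.symm
        rw [← Fin.cons_self_tail v, ← Fin.cons_self_tail v', h4]
        have h0' : v 0 = v' 0 := h0
        rw [h0']
    rw [Nat.card_Icc, Nat.add_sub_cancel] at h3
    calc (((s.filter (fun v => (Fin.tail v : Fin k → ℕ) = w)).card : ℕ) : ℝ)
        ≤ ((M / ∏ i, w i : ℕ) : ℝ) := by exact_mod_cast h3
      _ ≤ (M : ℝ) / ((∏ i, w i : ℕ) : ℝ) := Nat.cast_div_le
      _ = M * ∏ i, (1 : ℝ) / (w i : ℝ) := by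
          rw [prod_div_distrib, prod_const_one]
          push_cast
          ring
  rw [h1]
  push_cast
  calc ∑ w ∈ Fintype.piFinset (fun _ : Fin k => Icc 1 M),
      (((s.filter (fun v => (Fin.tail v : Fin k → ℕ) = w)).card : ℕ) : ℝ)
      ≤ ∑ w ∈ Fintype.piFinset (fun _ : Fin k => Icc 1 M), M * ∏ i, (1 : ℝ) / (w i : ℝ) :=
        sum_le_sum h2
    _ = M * (∑ a ∈ Icc 1 M, (1 : ℝ) / a) ^ k := by
        rw [← mul_sum]
        congr 1
        rw [← Finset.prod_univ_sum (fun _ : Fin k => Icc 1 M) (fun _ a => (1 : ℝ) / (a : ℝ))]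
        rw [prod_const, card_univ, Fintype.card_fin]

/-- number of solutions of `a b c = a' b' c'` in a box -/
theorem card_quad (s : Finset ℕ) (M : ℕ) (hs : ∀ a ∈ s, 0 < a)
    (hM : ∀ a ∈ s, ∀ b ∈ s, ∀ c ∈ s, a * b * c ≤ M) :
    ((((s ×ˢ s ×ˢ s) ×ˢ (s ×ˢ s ×ˢ s)).filter
      (fun t => t.1.1 * t.1.2.1 * t.1.2.2 = t.2.1 * t.2.2.1 * t.2.2.2)).card) ≤
    ((Fintype.piFinset (fun _ : Fin (8 + 1) => Icc 1 M)).filter (fun v => ∏ i, v i ≤ M)).card := by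
  classical
  -- `v = (x, y₁, y₂, z₁, z₂, p, q, r, s)`
  refine card_le_card_of_surjOn (fun v : Fin 9 → ℕ =>
    ((v 0 * (v 1 * v 2), v 3 * (v 5 * v 6), v 4 * (v 7 * v 8)),
     (v 0 * (v 3 * v 4), v 1 * (v 5 * v 7), v 2 * (v 6 * v 8)))) ?_
  rintro ⟨⟨n1, n2, n3⟩, ⟨n4, n5, n6⟩⟩ ht
  rw [mem_coe, mem_filter, mem_product, mem_product, mem_product, mem_product, mem_product] at ht
  obtain ⟨⟨⟨h1, h2, h3⟩, ⟨h4, h5, h6⟩⟩, he⟩ := ht
  simp only at h1 h2 h3 h4 h5 h6 he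
  have p1 := hs _ h1
  have p2 := hs _ h2
  have p3 := hs _ h3
  have p4 := hs _ h4
  have p5 := hs _ h5
  have p6 := hs _ h6
  have hle := hM _ h1 _ h2 _ h3
  obtain ⟨x, y, z, w, e1, e2, e3, e4⟩ := refine2 (b := n2 * n3) (c := n4) (d := n5 * n6) p1
    (by rw [← mul_assoc, he, mul_assoc])
  obtain ⟨z1, w1, z2, w2, f1, f2, f3, f4⟩ := refine2 p2 e2
  obtain ⟨y1, w1', y2, w2', g1, g2, g3, g4⟩ := refine2 p5 e4
  have hw : w1 * w2 = w1' * w2' := by rw [← f4, g4]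
  have pw1 : 0 < w1 := Nat.pos_of_ne_zero fun h => by
    rw [h, mul_zero] at f1; omega
  obtain ⟨p, q, r, t, k1, k2, k3, k4⟩ := refine2 pw1 hw
  have E1 : n1 = x * (y1 * y2) := by rw [e1, g3]
  have E2 : n2 = z1 * (p * q) := by rw [f1, k1]
  have E3 : n3 = z2 * (r * t) := by rw [f2, k2]
  have E4 : n4 = x * (z1 * z2) := by rw [e3, f3]
  have E5 : n5 = y1 * (p * r) := by rw [g1, k3]
  have E6 : n6 = y2 * (q * t) := by rw [g2, k4]
  have hprod : x * y1 * y2 * z1 * z2 * p * q * r * t ≤ M := by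
    have : x * y1 * y2 * z1 * z2 * p * q * r * t = n1 * n2 * n3 := by
      rw [E1, E2, E3]; ring
    rw [this]; exact hle
  have hpp : 0 < x * y1 * y2 * z1 * z2 * p * q * r * t := by
    have : x * y1 * y2 * z1 * z2 * p * q * r * t = n1 * n2 * n3 := by
      rw [E1, E2, E3]; ring
    rw [this]; positivity
  have key : ∀ i, (![x, y1, y2, z1, z2, p, q, r, t] : Fin 9 → ℕ) i ∣
      x * y1 * y2 * z1 * z2 * p * q * r * t := by
    have hpr : ∏ i, (![x, y1, y2, z1, z2, p, q, r, t] : Fin 9 → ℕ) i =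
        x * y1 * y2 * z1 * z2 * p * q * r * t := by
      simp [Fin.prod_univ_succ]
      ring
    intro i
    rw [← hpr]
    exact dvd_prod_of_mem _ (mem_univ i)
  refine ⟨![x, y1, y2, z1, z2, p, q, r, t], ?_, ?_⟩
  · rw [mem_coe, mem_filter, Fintype.mem_piFinset]
    refine ⟨fun i => mem_Icc.2 ⟨Nat.pos_of_dvd_of_pos (key i) hpp,
      (Nat.le_of_dvd hpp (key i)).trans hprod⟩, ?_⟩
    refine le_trans (le_of_eq ?_) hprod
    simp [Fin.prod_univ_succ]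
    ring
  · simp [E1, E2, E3, E4, E5, E6]

/-- number of pairs whose product is a square -/
theorem card_sq (Y : ℕ) (s : Finset ℕ) (hs : ∀ a ∈ s, 0 < a ∧ a ≤ Y) :
    ((((s ×ˢ s).filter (fun t => IsSquare (t.1 * t.2))).card : ℕ) : ℝ) ≤
      Y * ∑ a ∈ Icc 1 Y, (1 : ℝ) / a := by
  classical
  set U := (Icc 1 Y ×ˢ Icc 1 Y ×ˢ Icc 1 Y).filter
    (fun t => t.1 * t.2.1 ^ 2 ≤ Y ∧ t.1 * t.2.2 ^ 2 ≤ Y) with hU
  have h1 : ((s ×ˢ s).filter (fun t => IsSquare (t.1 * t.2))).card ≤ U.card := by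
    refine card_le_card_of_surjOn (fun t => (t.1 * t.2.1 ^ 2, t.1 * t.2.2 ^ 2)) ?_
    rintro ⟨x, x'⟩ ht
    rw [mem_coe, mem_filter, mem_product] at ht
    obtain ⟨⟨hx, hx'⟩, hsq⟩ := ht
    simp only at hx hx' hsq
    obtain ⟨px, lx⟩ := hs _ hx
    obtain ⟨px', lx'⟩ := hs _ hx'
    obtain ⟨g, y, y', hg, hc, e1, e2⟩ : ∃ g y y', 0 < g ∧ Nat.Coprime y y' ∧ x = y * g ∧
        x' = y' * g := by
      have hg : 0 < Nat.gcd x x' := Nat.gcd_pos_of_pos_left _ px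
      obtain ⟨y, y', hc, e1, e2⟩ := Nat.exists_coprime x x'
      exact ⟨_, y, y', hg, hc, e1, e2⟩
    obtain ⟨r, hr⟩ := hsq
    have hr2 : (y * y') * g ^ 2 = r ^ 2 := by rw [e1, e2] at hr; rw [sq r, ← hr]; ring
    have hgr : g ^ 2 ∣ r ^ 2 := ⟨y * y', by rw [← hr2]; ring⟩
    have hgr' : g ∣ r := (Nat.pow_dvd_pow_iff (by norm_num)).1 hgr
    obtain ⟨r', hr'⟩ := hgr'
    have hyy : y * y' = r' ^ 2 := by
      have : y * y' * g ^ 2 = r' ^ 2 * g ^ 2 := by rw [hr2, hr']; ring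
      exact Nat.eq_of_mul_eq_mul_right (by positivity) this
    obtain ⟨u, hu⟩ : ∃ u, y = u ^ 2 := exists_eq_pow_of_mul_eq_pow
      (by rw [gcd_eq_nat_gcd, hc.gcd_eq_one]; exact isUnit_one) hyy
    obtain ⟨v, hv⟩ : ∃ v, y' = v ^ 2 := exists_eq_pow_of_mul_eq_pow
      (by rw [gcd_eq_nat_gcd, hc.symm.gcd_eq_one]; exact isUnit_one) (by rw [mul_comm]; exact hyy)
    have pu : 0 < u := Nat.pos_of_ne_zero fun h => by
      rw [h] at hu; rw [hu] at e1; simp at e1; omega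
    have pv : 0 < v := Nat.pos_of_ne_zero fun h => by
      rw [h] at hv; rw [hv] at e2; simp at e2; omega
    have ex : x = g * u ^ 2 := by rw [e1, hu]; ring
    have ex' : x' = g * v ^ 2 := by rw [e2, hv]; ring
    have hgx : g ≤ Y := by
      calc g = g * 1 := (mul_one _).symm
        _ ≤ g * u ^ 2 := Nat.mul_le_mul_left _ (Nat.one_le_pow _ _ pu)
        _ = x := ex.symm
        _ ≤ Y := lx
    have hux : u ≤ Y := by
      calc u ≤ u ^ 2 := Nat.le_self_pow (by norm_num) u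
        _ = 1 * u ^ 2 := (one_mul _).symm
        _ ≤ g * u ^ 2 := Nat.mul_le_mul_right _ hg
        _ = x := ex.symm
        _ ≤ Y := lx
    have hvx : v ≤ Y := by
      calc v ≤ v ^ 2 := Nat.le_self_pow (by norm_num) v
        _ = 1 * v ^ 2 := (one_mul _).symm
        _ ≤ g * v ^ 2 := Nat.mul_le_mul_right _ hg
        _ = x' := ex'.symm
        _ ≤ Y := lx'
    refine ⟨(g, u, v), ?_, ?_⟩
    · rw [mem_coe, hU, mem_filter, mem_product, mem_product, mem_Icc, mem_Icc, mem_Icc]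
      exact ⟨⟨⟨hg, hgx⟩, ⟨pu, hux⟩, ⟨pv, hvx⟩⟩, by simpa [← ex] using lx, by simpa [← ex'] using lx'⟩
    · simp [ex, ex']
  have h2 : U.card = ∑ g ∈ Icc 1 Y, (U.filter (fun t => t.1 = g)).card :=
    card_eq_sum_card_fiberwise fun t ht => by
      rw [hU, mem_coe, mem_filter, mem_product] at ht
      exact ht.1.1
  have h3 : ∀ g ∈ Icc 1 Y, (((U.filter (fun t => t.1 = g)).card : ℕ) : ℝ) ≤ Y * (1 / (g : ℝ)) := by
    intro g hg
    rw [mem_Icc] at hg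
    have h4 : (U.filter (fun t => t.1 = g)).card ≤
        (Icc 1 (Nat.sqrt (Y / g)) ×ˢ Icc 1 (Nat.sqrt (Y / g))).card := by
      refine card_le_card_of_injOn (fun t => t.2) ?_ ?_
      · rintro ⟨g', u, v⟩ ht
        rw [mem_coe, mem_filter, hU, mem_filter, mem_product, mem_product, mem_Icc, mem_Icc,
          mem_Icc] at ht
        obtain ⟨⟨⟨-, ⟨pu, -⟩, ⟨pv, -⟩⟩, h5, h6⟩, h7⟩ := ht
        simp only at pu pv h5 h6 h7
        subst h7
        rw [mem_coe, mem_product, mem_Icc, mem_Icc]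
        refine ⟨⟨pu, ?_⟩, pv, ?_⟩
        · rw [Nat.le_sqrt', Nat.le_div_iff_mul_le hg.1, mul_comm]; exact h5
        · rw [Nat.le_sqrt', Nat.le_div_iff_mul_le hg.1, mul_comm]; exact h6
      · rintro ⟨g', u, v⟩ ht ⟨g'', u', v'⟩ ht' h8
        rw [mem_coe, mem_filter] at ht ht'
        simp only at ht ht' h8
        rw [ht.2, ht'.2, h8]
    rw [card_product, Nat.card_Icc, Nat.add_sub_cancel] at h4
    have h5 : Nat.sqrt (Y / g) * Nat.sqrt (Y / g) ≤ Y / g := Nat.sqrt_le _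
    calc (((U.filter (fun t => t.1 = g)).card : ℕ) : ℝ) ≤ ((Y / g : ℕ) : ℝ) := by
          exact_mod_cast h4.trans h5
      _ ≤ (Y : ℝ) / g := Nat.cast_div_le
      _ = Y * (1 / (g : ℝ)) := by ring
  calc ((((s ×ˢ s).filter (fun t => IsSquare (t.1 * t.2))).card : ℕ) : ℝ) ≤ (U.card : ℝ) := by
        exact_mod_cast h1
    _ = ∑ g ∈ Icc 1 Y, (((U.filter (fun t => t.1 = g)).card : ℕ) : ℝ) := by
        rw [h2]; push_cast; rfl
    _ ≤ ∑ g ∈ Icc 1 Y, Y * (1 / (g : ℝ)) := sum_le_sum h3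
    _ = Y * ∑ a ∈ Icc 1 Y, (1 : ℝ) / a := by rw [mul_sum]

end Vale.Agent.P017.R2.H918
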